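import Mathlib.Analysis.Complex.BranchLogRoot
import Mathlib.Analysis.Convex.Contractible
import Mathlib.Analysis.SpecialFunctions.Complex.LogDeriv

/-!
# P040, pair bound: two lifts that exchange their order meet

`exists_log` gives continuous logarithms on convex open sets; `lifts_meet` is the winding argument
on the square: if `F - G` had no zero, its boundary would turn once around `0`.
-/

open Set Complex
open scoped Real Topology

noncomputable section

namespace Vale.Agent.P040.PairAngle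

/-- A continuous logarithm on a nonempty open convex set. -/
theorem exists_log {E : Type*} [NormedAddCommGroup E] [NormedSpace ℝ E] {U : Set E}
    (hc : Convex ℝ U) (ho : IsOpen U) (hne : U.Nonempty) {g : E → ℂ} (hg : ContinuousOn g U)
    (h0 : ∀ x ∈ U, g x ≠ 0) : ∃ f : E → ℂ, ContinuousOn f U ∧ ∀ x ∈ U, exp (f x) = g x := by
  have : ContractibleSpace U := hc.contractibleSpace hne
  have hs : IsSimplyConnected U := SimplyConnectedSpace.ofContractible U
  obtain ⟨f, hf, he⟩ := exists_continuousOn_eqOn_exp_comp hs ho hg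
    (by rintro ⟨x, hx, hx0⟩; exact h0 x hx hx0)
  exact ⟨f, hf, fun x hx => he hx⟩

/-- Two continuous logarithms of one function differ by a constant. -/
theorem exp_eq_const {X : Type*} [TopologicalSpace X] {S : Set X} (hS : IsPreconnected S)
    {f g : X → ℂ} (hf : ContinuousOn f S) (hg : ContinuousOn g S)
    (h : ∀ x ∈ S, exp (f x) = exp (g x)) {x y : X} (hx : x ∈ S) (hy : y ∈ S) :
    f x - g x = f y - g y := by
  choose k hk using fun z (hz : z ∈ S) => exp_eq_exp_iff_exists_int.1 (h z hz)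
  set φ : X → ℝ := fun z => ((f z - g z).im) / (2 * π) with hφ
  have hval : ∀ z (hz : z ∈ S), φ z = (k z hz : ℝ) := fun z hz => by
    have h2 : ((k z hz : ℂ) * (2 * π * I)).im = (k z hz : ℝ) * (2 * π) := by simp
    rw [hφ]
    simp only [hk z hz, add_sub_cancel_left, h2]
    field_simp
  have hφc : ContinuousOn φ S :=
    (continuous_im.comp_continuousOn (hf.sub hg)).div_const _
  have main : ∀ a b (ha : a ∈ S) (hb : b ∈ S), k a ha ≤ k b hb → k a ha = k b hb := by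
    intro a b ha hb hle
    by_contra hne
    have h1 : (k a ha : ℝ) + 1 ≤ k b hb := by
      exact_mod_cast Int.add_one_le_iff.2 (lt_of_le_of_ne hle hne)
    obtain ⟨z, hz, hz'⟩ : (k a ha : ℝ) + 1 / 2 ∈ φ '' S :=
      hS.intermediate_value ha hb hφc
        ⟨by rw [hval a ha]; linarith, by rw [hval b hb]; linarith⟩
    rw [hval z hz] at hz'
    have e : (2 * k z hz : ℤ) = 2 * k a ha + 1 := by
      exact_mod_cast (by linarith : (2 * k z hz : ℝ) = 2 * k a ha + 1)
    omega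
  have e : k x hx = k y hy := by
    rcases le_total (k x hx) (k y hy) with h' | h'
    · exact main _ _ hx hy h'
    · exact (main _ _ hy hx h').symm
  rw [hk x hx, hk y hy, add_sub_cancel_left, add_sub_cancel_left, e]

/-- Along a segment in a closed half plane, a continuous logarithm follows the principal one. -/
theorem log_step {γ h g : ℝ → ℂ} {p q : ℝ} (hpq : p ≤ q) (hh : ContinuousOn h (Icc p q))
    (hg : ContinuousOn g (Icc p q)) (he : ∀ x ∈ Icc p q, exp (g x) = γ x)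
    (hhγ : ∀ x ∈ Icc p q, h x = γ x) (hs : ∀ x ∈ Icc p q, h x ∈ slitPlane) :
    g q - g p = log (h q) - log (h p) := by
  have hl : ContinuousOn (fun x => log (h x)) (Icc p q) := hh.clog hs
  have := exp_eq_const isPreconnected_Icc hg hl
    (fun x hx => by rw [he x hx, exp_log (slitPlane_ne_zero (hs x hx)), hhγ x hx])
    (left_mem_Icc.2 hpq) (right_mem_Icc.2 hpq)
  linear_combination -this

theorem slit_of_re_nonneg {z : ℂ} (h : 0 ≤ z.re) (h0 : z ≠ 0) : z ∈ slitPlane := by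
  rw [mem_slitPlane_iff]
  rcases h.eq_or_lt with h' | h'
  · exact Or.inr fun hi => h0 (Complex.ext h'.symm hi)
  · exact Or.inl h'

/-- **The winding argument.** Real parts enclosed by their end values, imaginary order exchanged
between the two ends: the curves meet. -/
theorem lifts_meet_aux {F G : ℝ → ℂ} {s₀ s₁ t₀ t₁ : ℝ} (hs : s₀ ≤ s₁) (ht : t₀ ≤ t₁)
    (hF : ContinuousOn F (Icc s₀ s₁)) (hG : ContinuousOn G (Icc t₀ t₁))
    (e₀ : (F s₀).re = (G t₀).re) (e₁ : (F s₁).re = (G t₁).re)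
    (bG : ∀ t ∈ Icc t₀ t₁, (F s₀).re ≤ (G t).re ∧ (G t).re ≤ (F s₁).re)
    (bF : ∀ s ∈ Icc s₀ s₁, (G t₀).re ≤ (F s).re ∧ (F s).re ≤ (G t₁).re)
    (h₀ : (G t₀).im < (F s₀).im) (h₁ : (F s₁).im < (G t₁).im) :
    ∃ s ∈ Icc s₀ s₁, ∃ t ∈ Icc t₀ t₁, F s = G t := by
  by_contra hno
  push Not at hno
  set H : ℝ × ℝ → ℂ := fun p => IccExtend hs (fun s => F s) p.1 - IccExtend ht (fun t => G t) p.2
    with hH
  have hHc : Continuous H := by
    refine Continuous.sub ?_ ?_
    · exact (continuous_IccExtend_iff.2 (continuousOn_iff_continuous_domRestrict.1 hF)).comp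
        continuous_fst
    · exact (continuous_IccExtend_iff.2 (continuousOn_iff_continuous_domRestrict.1 hG)).comp
        continuous_snd
  have hH0 : ∀ p, H p ≠ 0 := fun p => sub_ne_zero.2
    (hno _ (projIcc s₀ s₁ hs p.1).2 _ (projIcc t₀ t₁ ht p.2).2)
  have hHe : ∀ {s t}, s ∈ Icc s₀ s₁ → t ∈ Icc t₀ t₁ → H (s, t) = F s - G t := fun hs' ht' => by
    simp only [hH, IccExtend_of_mem hs (fun s => F s) hs', IccExtend_of_mem ht (fun t => G t) ht']
  obtain ⟨g, hgc, hge⟩ := exists_log (U := (univ : Set (ℝ × ℝ))) convex_univ isOpen_univ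
    univ_nonempty hHc.continuousOn fun p _ => hH0 p
  rw [continuousOn_univ] at hgc
  have hge' : ∀ p, exp (g p) = H p := fun p => hge p (mem_univ p)
  have a₀ := left_mem_Icc.2 hs
  have a₁ := right_mem_Icc.2 hs
  have b₀ := left_mem_Icc.2 ht
  have b₁ := right_mem_Icc.2 ht
  have hπ : exp ((π : ℂ) * I) = -1 := exp_pi_mul_I
  -- the right half plane: `t = t₀`, then `s = s₁`
  have r1 := log_step (γ := fun s => H (s, t₀)) (h := fun s => H (s, t₀)) hs (by fun_prop)
    (g := fun s => g (s, t₀)) (by fun_prop) (fun s _ => hge' _) (fun _ _ => rfl) fun s hs' => by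
      refine slit_of_re_nonneg ?_ (hH0 _)
      rw [hHe hs' b₀, sub_re]; linarith [(bF s hs').1]
  have r2 := log_step (γ := fun t => H (s₁, t)) (h := fun t => H (s₁, t)) ht (by fun_prop)
    (g := fun t => g (s₁, t)) (by fun_prop) (fun t _ => hge' _) (fun _ _ => rfl) fun t ht' => by
      refine slit_of_re_nonneg ?_ (hH0 _)
      rw [hHe a₁ ht', sub_re]; linarith [(bG t ht').2]
  -- the left half plane: `s = s₀`, then `t = t₁`
  have l1 := log_step (γ := fun t => -H (s₀, t)) (h := fun t => -H (s₀, t)) ht (by fun_prop)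
    (g := fun t => g (s₀, t) + π * I) (by fun_prop)
    (fun t _ => by rw [Complex.exp_add, hge', hπ]; ring) (fun _ _ => rfl) fun t ht' => by
      refine slit_of_re_nonneg ?_ (neg_ne_zero.2 (hH0 _))
      rw [hHe a₀ ht', neg_re, sub_re]; linarith [(bG t ht').1]
  have l2 := log_step (γ := fun s => -H (s, t₁)) (h := fun s => -H (s, t₁)) hs (by fun_prop)
    (g := fun s => g (s, t₁) + π * I) (by fun_prop)
    (fun s _ => by rw [Complex.exp_add, hge', hπ]; ring) (fun _ _ => rfl) fun s hs' => by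
      refine slit_of_re_nonneg ?_ (neg_ne_zero.2 (hH0 _))
      rw [hHe hs' b₁, neg_re, sub_re]; linarith [(bF s hs').2]
  have key : (log (H (s₁, t₁))).im - (log (H (s₀, t₀))).im =
      (log (-H (s₁, t₁))).im - (log (-H (s₀, t₀))).im := by
    have e := congrArg Complex.im (show log (H (s₁, t₁)) - log (H (s₀, t₀)) =
      log (-H (s₁, t₁)) - log (-H (s₀, t₀)) by linear_combination -r1 - r2 + l1 + l2)
    rwa [sub_im, sub_im] at e
  simp only [log_im] at key
  have A1 : arg (H (s₀, t₀)) = π / 2 :=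
    arg_eq_pi_div_two_iff.2 (by rw [hHe a₀ b₀, sub_re, sub_im]; exact ⟨by linarith, by linarith⟩)
  have A2 : arg (-H (s₀, t₀)) = -(π / 2) :=
    arg_eq_neg_pi_div_two_iff.2
      (by rw [hHe a₀ b₀, neg_re, neg_im, sub_re, sub_im]; exact ⟨by linarith, by linarith⟩)
  have A3 : arg (H (s₁, t₁)) = -(π / 2) :=
    arg_eq_neg_pi_div_two_iff.2
      (by rw [hHe a₁ b₁, sub_re, sub_im]; exact ⟨by linarith, by linarith⟩)
  have A4 : arg (-H (s₁, t₁)) = π / 2 :=
    arg_eq_pi_div_two_iff.2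
      (by rw [hHe a₁ b₁, neg_re, neg_im, sub_re, sub_im]; exact ⟨by linarith, by linarith⟩)
  rw [A1, A2, A3, A4] at key
  linarith [Real.pi_pos]

/-- Either order. -/
theorem lifts_meet {F G : ℝ → ℂ} {s₀ s₁ t₀ t₁ R : ℝ} (hs : s₀ ≤ s₁) (ht : t₀ ≤ t₁)
    (hF : ContinuousOn F (Icc s₀ s₁)) (hG : ContinuousOn G (Icc t₀ t₁))
    (f₀ : (F s₀).re = -R) (f₁ : (F s₁).re = R) (g₀ : (G t₀).re = -R) (g₁ : (G t₁).re = R)
    (bF : ∀ s ∈ Icc s₀ s₁, -R ≤ (F s).re ∧ (F s).re ≤ R)
    (bG : ∀ t ∈ Icc t₀ t₁, -R ≤ (G t).re ∧ (G t).re ≤ R)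
    (h : ((G t₀).im < (F s₀).im ∧ (F s₁).im < (G t₁).im) ∨
      ((F s₀).im < (G t₀).im ∧ (G t₁).im < (F s₁).im)) :
    ∃ s ∈ Icc s₀ s₁, ∃ t ∈ Icc t₀ t₁, F s = G t := by
  rcases h with ⟨h₀, h₁⟩ | ⟨h₀, h₁⟩
  · exact lifts_meet_aux hs ht hF hG (f₀.trans g₀.symm) (f₁.trans g₁.symm)
      (by rw [f₀, f₁]; exact bG) (by rw [g₀, g₁]; exact bF) h₀ h₁
  · obtain ⟨t, ht', s, hs', e⟩ := lifts_meet_aux ht hs hG hF (g₀.trans f₀.symm) (g₁.trans f₁.symm)
      (by rw [g₀, g₁]; exact bF) (by rw [f₀, f₁]; exact bG) h₀ h₁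
    exact ⟨s, hs', t, ht', e.symm⟩

/-- First exit: `f` runs from `-R` to `R` inside `[a, b]` staying between. -/
theorem exists_cut {f : ℝ → ℝ} {a b R : ℝ} (hab : a ≤ b) (hf : ContinuousOn f (Icc a b))
    (hR : 0 < R) (ha : f a ≤ -R) (hb : R ≤ f b) :
    ∃ t₀ t₁, a ≤ t₀ ∧ t₀ ≤ t₁ ∧ t₁ ≤ b ∧ f t₀ = -R ∧ f t₁ = R ∧
      ∀ t ∈ Icc t₀ t₁, -R ≤ f t ∧ f t ≤ R := by
  have hK : IsCompact (Icc a b ∩ f ⁻¹' Iic (-R)) :=
    isCompact_Icc.of_isClosed_subset (hf.preimage_isClosed_of_isClosed isClosed_Icc isClosed_Iic)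
      inter_subset_left
  obtain ⟨t₀, ⟨ht₀, h0⟩, hmax⟩ := hK.exists_isGreatest ⟨a, left_mem_Icc.2 hab, ha⟩
  have e₀ : f t₀ = -R := by
    obtain ⟨c, hc, hce⟩ := intermediate_value_Icc ht₀.2
      (hf.mono (Icc_subset_Icc ht₀.1 le_rfl)) ⟨h0, by linarith⟩
    have : c = t₀ := le_antisymm (hmax ⟨⟨ht₀.1.trans hc.1, hc.2⟩, hce.le⟩) hc.1
    rwa [this] at hce
  have hf' := hf.mono (Icc_subset_Icc ht₀.1 le_rfl)
  have hK' : IsCompact (Icc t₀ b ∩ f ⁻¹' Ici R) :=
    isCompact_Icc.of_isClosed_subset (hf'.preimage_isClosed_of_isClosed isClosed_Icc isClosed_Ici)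
      inter_subset_left
  obtain ⟨t₁, ⟨ht₁, h1⟩, hmin⟩ := hK'.exists_isLeast ⟨b, right_mem_Icc.2 ht₀.2, hb⟩
  have e₁ : f t₁ = R := by
    obtain ⟨c, hc, hce⟩ := intermediate_value_Icc ht₁.1
      (hf'.mono (Icc_subset_Icc le_rfl ht₁.2)) ⟨by linarith, h1⟩
    have : c = t₁ := le_antisymm hc.2 (hmin ⟨⟨hc.1, hc.2.trans ht₁.2⟩, hce.ge⟩)
    rwa [this] at hce
  refine ⟨t₀, t₁, ht₀.1, ht₁.1, ht₁.2, e₀, e₁, fun t ht => ⟨?_, ?_⟩⟩
  · by_contra h
    push Not at h
    have := hmax ⟨⟨ht₀.1.trans ht.1, ht.2.trans ht₁.2⟩, h.le⟩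
    have : t = t₀ := le_antisymm this ht.1
    rw [this, e₀] at h
    exact lt_irrefl _ h
  · by_contra h
    push Not at h
    have := hmin ⟨⟨ht.1, ht.2.trans ht₁.2⟩, h.le⟩
    have : t = t₁ := le_antisymm ht.2 this
    rw [this, e₁] at h
    exact lt_irrefl _ h

end Vale.Agent.P040.PairAngle
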