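import Vale.Agent.P040.Defs
import Vale.Agent.P040.PairAngle.Winding

/-!
# P040, pair bound: lifts of the paths `A a → B i → A a'`

In the coordinate `(z - A a) / (z - A a')` the path runs from `0` to `∞`; its logarithm starts at
height `θ a i` and ends at height `-θ a' i` (in turns, up to integers and common constants).
-/

open Set Filter Complex
open scoped Real Topology

noncomputable section

namespace Vale.Agent.P040.PairAngle

variable {m n : ℕ} (D : RDrawing m n) (a a' : Fin m)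

/-- The edge at `A a` followed by the reversed edge at `A a'`. -/
def path (i : Fin n) (u : ℝ) : ℂ :=
  if u ≤ 1 / 2 then D.arc a i (2 * u) else D.arc a' i (2 - 2 * u)

/-- The coordinate with `A a` at `0` and `A a'` at infinity. -/
def coord (i : Fin n) (u : ℝ) : ℂ :=
  (path D a a' i u - D.A a) / (path D a a' i u - D.A a')

theorem continuousOn_path (i : Fin n) : ContinuousOn (path D a a' i) (Icc 0 1) := by
  have h1 : ContinuousOn (fun u => D.arc a i (2 * u)) (Icc 0 (1 / 2)) :=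
    (D.cont a i).comp (by fun_prop) fun u hu => ⟨by linarith [hu.1], by linarith [hu.2]⟩
  have h2 : ContinuousOn (fun u => D.arc a' i (2 - 2 * u)) (Icc (1 / 2) 1) :=
    (D.cont a' i).comp (by fun_prop) fun u hu => ⟨by linarith [hu.2], by linarith [hu.1]⟩
  have e1 : EqOn (path D a a' i) (fun u => D.arc a i (2 * u)) (Icc 0 (1 / 2)) :=
    fun u hu => if_pos hu.2
  have e2 : EqOn (path D a a' i) (fun u => D.arc a' i (2 - 2 * u)) (Icc (1 / 2) 1) := by
    intro u hu
    rcases hu.1.eq_or_lt with h | h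
    · subst h
      simp only [path, le_refl, if_true]
      norm_num [D.tgt]
    · exact if_neg (not_le.2 h)
  have := (h1.congr e1).union_of_isClosed (h2.congr e2) isClosed_Icc isClosed_Icc
  rwa [Icc_union_Icc_eq_Icc (by norm_num) (by norm_num)] at this

theorem path_zero (i : Fin n) : path D a a' i 0 = D.A a := by
  norm_num [path, D.src]

theorem path_one (i : Fin n) : path D a a' i 1 = D.A a' := by
  norm_num [path, D.src]

theorem path_half (i : Fin n) : path D a a' i (1 / 2) = D.B i := by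
  norm_num [path, D.tgt]

theorem path_avoid (i : Fin n) {u : ℝ} (hu : u ∈ Ioo (0 : ℝ) 1) (b : Fin m) :
    path D a a' i u ≠ D.A b := by
  by_cases h : u = 1 / 2
  · rw [h, path_half]
    exact fun e => by simpa using D.inj (a₁ := Sum.inr i) (a₂ := Sum.inl b) e
  unfold path
  split_ifs with h'
  · exact fun e => (D.avoid a i (2 * u) ⟨by linarith [hu.1],
      by linarith [lt_of_le_of_ne h' h]⟩).1 ⟨b, e.symm⟩
  · exact fun e => (D.avoid a' i (2 - 2 * u) ⟨by linarith [hu.2],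
      by linarith [not_le.1 h']⟩).1 ⟨b, e.symm⟩

/-- `2 π i k`. -/
theorem exp_turns (k : ℤ) : exp ((k : ℂ) * (2 * π * I)) = 1 :=
  exp_eq_one_iff.2 ⟨k, rfl⟩

/-- **The lift of one path.** -/
theorem exists_lift {θ : Fin m → Fin n → ℝ} (hθ : D.Radial θ) (ha : a ≠ a') (i : Fin n) :
    ∃ (L : ℝ → ℂ) (z : ℤ), ContinuousOn L (Ioo 0 1) ∧
      (∀ u ∈ Ioo (0 : ℝ) 1, exp (L u) = coord D a a' i u) ∧
      Tendsto (fun u => (L u).re) (𝓝[>] 0) atBot ∧ Tendsto (fun u => (L u).re) (𝓝[<] 1) atTop ∧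
      Tendsto (fun u => (L u).im / (2 * π)) (𝓝[>] 0)
        (𝓝 (θ a i - arg (D.A a - D.A a') / (2 * π))) ∧
      Tendsto (fun u => (L u).im / (2 * π)) (𝓝[<] 1)
        (𝓝 (-θ a' i + z + arg (D.A a' - D.A a) / (2 * π))) := by
  set P := path D a a' i with hP
  have hPc := continuousOn_path D a a' i
  have hne : D.A a ≠ D.A a' := fun e => ha (Sum.inl_injective (D.inj (a₁ := Sum.inl a)
    (a₂ := Sum.inl a') e))
  have hw : ContinuousOn (coord D a a' i) (Ioo 0 1) :=
    ((hPc.mono Ioo_subset_Icc_self).sub continuousOn_const).div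
      ((hPc.mono Ioo_subset_Icc_self).sub continuousOn_const)
      fun u hu => sub_ne_zero.2 (path_avoid D a a' i hu a')
  obtain ⟨L₀, hL₀c, hL₀⟩ := exists_log (convex_Ioo 0 1) isOpen_Ioo (nonempty_Ioo.2 zero_lt_one) hw
    fun u hu => div_ne_zero (sub_ne_zero.2 (path_avoid D a a' i hu a))
      (sub_ne_zero.2 (path_avoid D a a' i hu a'))
  obtain ⟨ρ, hρ, δ, hδ, hr⟩ := hθ.2.2 a
  obtain ⟨ρ', hρ', δ', hδ', hr'⟩ := hθ.2.2 a'
  -- near `0`
  set e₀ : ℂ := exp (↑(2 * π * θ a i) * I) with he₀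
  set q₀ : ℝ → ℂ := fun u => (D.A a - D.A a') / (D.A a + ↑(ρ * (2 * u)) * e₀ - D.A a') with hq₀
  have hq₀c : ContinuousAt q₀ 0 :=
    ContinuousAt.div (by fun_prop) (by fun_prop) (by simp [sub_ne_zero.2 hne])
  have hq₀0 : q₀ 0 = 1 := by simp [hq₀, div_self (sub_ne_zero.2 hne)]
  obtain ⟨ε, hε, hεq⟩ : ∃ ε > 0, ∀ u, |u| < ε → q₀ u ∈ slitPlane := by
    have := hq₀c.eventually_mem (isOpen_slitPlane.mem_nhds (hq₀0 ▸ one_mem_slitPlane))
    obtain ⟨ε, hε, h⟩ := Metric.eventually_nhds_iff.1 this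
    exact ⟨ε, hε, fun u hu => h (by simpa [Real.dist_eq] using hu)⟩
  set r := min ε (δ / 2) with hr0
  have hr0' : 0 < r := lt_min hε (by linarith [hδ.1])
  set ℓ : ℝ → ℂ := fun u => (↑(Real.log (ρ * (2 * u))) + ↑(2 * π * θ a i) * I + log (q₀ u)) -
    log (D.A a - D.A a') with hℓ
  have hℓc : ContinuousOn ℓ (Ioo 0 r) := by
    have hq : ContinuousOn q₀ (Ioo 0 r) := by
      intro u hu
      refine (ContinuousAt.div (by fun_prop) (by fun_prop) ?_).continuousWithinAt
      have := slitPlane_ne_zero (hεq u (by rw [abs_of_pos hu.1]; exact hu.2.trans_le (min_le_left _ _)))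
      exact fun e => this (by simp only [hq₀] at *; rw [e, div_zero])
    refine ((ContinuousOn.add (ContinuousOn.add (continuous_ofReal.comp_continuousOn
      (ContinuousOn.log (by fun_prop) fun u hu => (mul_pos hρ (by linarith [hu.1])).ne'))
      continuousOn_const) (hq.clog fun u hu => hεq u ?_))).sub continuousOn_const
    rw [abs_of_pos hu.1]
    exact hu.2.trans_le (min_le_left _ _)
  have hℓe : ∀ u ∈ Ioo (0 : ℝ) r, exp (ℓ u) = coord D a a' i u := by
    intro u hu
    have hu1 : u < δ / 2 := hu.2.trans_le (min_le_right _ _)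
    have hPu : P u = D.A a + ↑(ρ * (2 * u)) * e₀ := by
      rw [hP, path, if_pos (by linarith [hδ.2]), hr i _ ⟨by linarith [hu.1], by linarith⟩]
    have hd : D.A a + ↑(ρ * (2 * u)) * e₀ - D.A a' ≠ 0 := by
      rw [← hPu, sub_ne_zero]
      exact path_avoid D a a' i ⟨hu.1, by linarith [hδ.2]⟩ a'
    have hq : q₀ u ≠ 0 :=
      slitPlane_ne_zero (hεq u (by rw [abs_of_pos hu.1]; exact hu.2.trans_le (min_le_left _ _)))
    have hE : exp (↑(Real.log (ρ * (2 * u))) : ℂ) = ↑(ρ * (2 * u)) := by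
      rw [← ofReal_exp, Real.exp_log (mul_pos hρ (by linarith [hu.1]))]
    simp only [hℓ, Complex.exp_sub, Complex.exp_add, exp_log hq, exp_log (sub_ne_zero.2 hne), hE]
    rw [coord, ← hP, hPu, ← he₀]
    simp only [hq₀, add_sub_cancel_left]
    have := sub_ne_zero.2 hne
    field_simp
  -- near `1`
  set e₁ : ℂ := exp (↑(2 * π * θ a' i) * I) with he₁
  set q₁ : ℝ → ℂ := fun u => (D.A a' + ↑(ρ' * (2 - 2 * u)) * e₁ - D.A a) / (D.A a' - D.A a)
    with hq₁
  have hq₁c : Continuous q₁ := by fun_prop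
  have hq₁0 : q₁ 1 = 1 := by simp [hq₁, div_self (sub_ne_zero.2 hne.symm)]
  obtain ⟨ε', hε', hεq'⟩ : ∃ ε > 0, ∀ u, |u - 1| < ε → q₁ u ∈ slitPlane := by
    have := hq₁c.continuousAt.eventually_mem
      (isOpen_slitPlane.mem_nhds (hq₁0 ▸ one_mem_slitPlane))
    obtain ⟨ε, hε, h⟩ := Metric.eventually_nhds_iff.1 this
    exact ⟨ε, hε, fun u hu => h (by simpa [Real.dist_eq] using hu)⟩
  set r' := max (1 - ε') (1 - δ' / 2) with hr1
  have hr1' : r' < 1 := max_lt (by linarith) (by linarith [hδ'.1])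
  set ℓ' : ℝ → ℂ := fun u => (log (q₁ u) + log (D.A a' - D.A a)) -
    (↑(Real.log (ρ' * (2 - 2 * u))) + ↑(2 * π * θ a' i) * I) with hℓ'
  have hmem : ∀ u ∈ Ioo r' 1, |u - 1| < ε' := fun u hu => by
    rw [abs_sub_comm, abs_of_pos (sub_pos.2 hu.2)]
    linarith [le_max_left (1 - ε') (1 - δ' / 2), hu.1]
  have hℓ'c : ContinuousOn ℓ' (Ioo r' 1) :=
    (ContinuousOn.add (hq₁c.continuousOn.clog fun u hu => hεq' u (hmem u hu))
      continuousOn_const).sub (ContinuousOn.add (continuous_ofReal.comp_continuousOn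
      (ContinuousOn.log (by fun_prop) fun u hu => (mul_pos hρ' (by linarith [hu.2])).ne'))
      continuousOn_const)
  have hℓ'e : ∀ u ∈ Ioo r' 1, exp (ℓ' u) = coord D a a' i u := by
    intro u hu
    have hu1 : 1 - δ' / 2 < u := (le_max_right _ _).trans_lt hu.1
    have hPu : P u = D.A a' + ↑(ρ' * (2 - 2 * u)) * e₁ := by
      rw [hP, path, if_neg (show ¬ u ≤ 1 / 2 by linarith [hδ'.2]), hr' i _ ⟨by linarith [hu.2], by linarith⟩]
    have hE : exp (↑(Real.log (ρ' * (2 - 2 * u))) : ℂ) = ↑(ρ' * (2 - 2 * u)) := by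
      rw [← ofReal_exp, Real.exp_log (mul_pos hρ' (by linarith [hu.2]))]
    simp only [hℓ', Complex.exp_sub, Complex.exp_add,
      exp_log (slitPlane_ne_zero (hεq' u (hmem u hu))), exp_log (sub_ne_zero.2 hne.symm), hE]
    rw [coord, ← hP, hPu, ← he₁]
    simp only [hq₁, add_sub_cancel_left]
    have := sub_ne_zero.2 hne.symm
    field_simp
  -- normalise
  have hsub : Ioo (0 : ℝ) r ⊆ Ioo 0 1 := fun u hu =>
    ⟨hu.1, by linarith [hu.2, min_le_right ε (δ / 2), hδ.2]⟩
  have hsub' : Ioo r' 1 ⊆ Ioo (0 : ℝ) 1 := fun u hu =>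
    ⟨by linarith [hu.1, le_max_right (1 - ε') (1 - δ' / 2), hδ'.2], hu.2⟩
  obtain ⟨u₀, hu₀⟩ := nonempty_Ioo.2 hr0'
  obtain ⟨k, hk⟩ := exp_eq_exp_iff_exists_int.1 ((hL₀ u₀ (hsub hu₀)).trans (hℓe u₀ hu₀).symm)
  obtain ⟨u₁, hu₁⟩ := nonempty_Ioo.2 hr1'
  obtain ⟨k', hk'⟩ := exp_eq_exp_iff_exists_int.1 ((hL₀ u₁ (hsub' hu₁)).trans (hℓ'e u₁ hu₁).symm)
  refine ⟨fun u => L₀ u - k * (2 * π * I), k' - k, hL₀c.sub continuousOn_const, fun u hu => by
    rw [Complex.exp_sub, exp_turns, div_one, hL₀ u hu], ?_⟩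
  have eq0 : ∀ u ∈ Ioo 0 r, L₀ u - k * (2 * π * I) = ℓ u := fun u hu => by
    have := exp_eq_const isPreconnected_Ioo (hL₀c.mono hsub) hℓc
      (fun x hx => (hL₀ x (hsub hx)).trans (hℓe x hx).symm) hu hu₀
    linear_combination this + hk
  have eq1 : ∀ u ∈ Ioo r' 1, L₀ u - k * (2 * π * I) = ℓ' u + (k' - k : ℤ) * (2 * π * I) :=
    fun u hu => by
    have := exp_eq_const isPreconnected_Ioo (hL₀c.mono hsub') hℓ'c
      (fun x hx => (hL₀ x (hsub' hx)).trans (hℓ'e x hx).symm) hu hu₁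
    push_cast
    linear_combination this + hk'
  have ev0 := mem_of_superset (Ioo_mem_nhdsGT hr0') eq0
  have ev1 := mem_of_superset (Ioo_mem_nhdsLT hr1') eq1
  have lq0 : Tendsto (fun u => log (q₀ u)) (𝓝[>] 0) (𝓝 0) := by
    have := (hq₀c.clog (hq₀0 ▸ one_mem_slitPlane)).tendsto
    rw [hq₀0, log_one] at this
    exact this.mono_left nhdsWithin_le_nhds
  have lq1 : Tendsto (fun u => log (q₁ u)) (𝓝[<] 1) (𝓝 0) := by
    have := (hq₁c.continuousAt.clog (hq₁0 ▸ one_mem_slitPlane)).tendsto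
    rw [hq₁0, log_one] at this
    exact this.mono_left nhdsWithin_le_nhds
  have hre : ∀ {f : ℝ → ℂ} {l : Filter ℝ}, Tendsto f l (𝓝 0) →
      Tendsto (fun u => (f u).re) l (𝓝 0) ∧ Tendsto (fun u => (f u).im) l (𝓝 0) := fun {f l} h =>
    ⟨by simpa [Function.comp_def] using (continuous_re.tendsto 0).comp h,
      by simpa [Function.comp_def] using (continuous_im.tendsto 0).comp h⟩
  refine ⟨?_, ?_, ?_, ?_⟩
  · have h1 : Tendsto (fun u : ℝ => ρ * (2 * u)) (𝓝[>] 0) (𝓝[>] 0) := by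
      refine tendsto_nhdsWithin_iff.2 ⟨?_, eventually_nhdsWithin_of_forall fun u hu => ?_⟩
      · exact (Continuous.tendsto' (by fun_prop) _ _ (by simp)).mono_left nhdsWithin_le_nhds
      · exact mul_pos hρ (by linarith [mem_Ioi.1 hu])
    have h2 := (Real.tendsto_log_nhdsGT_zero.comp h1).atBot_add
      ((hre lq0).1.sub (tendsto_const_nhds (x := (log (D.A a - D.A a')).re)))
    refine h2.congr' ?_
    filter_upwards [ev0] with u hu
    have hu' : L₀ u - k * (2 * π * I) = ℓ u := hu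
    simp only [hu', hℓ, Function.comp_apply, add_re, sub_re, ofReal_re, mul_re, ofReal_im, I_re, I_im]
    ring
  · have h1 : Tendsto (fun u : ℝ => ρ' * (2 - 2 * u)) (𝓝[<] 1) (𝓝[>] 0) := by
      refine tendsto_nhdsWithin_iff.2 ⟨?_, eventually_nhdsWithin_of_forall fun u hu => ?_⟩
      · exact (Continuous.tendsto' (by fun_prop) _ _ (by simp)).mono_left nhdsWithin_le_nhds
      · exact mul_pos hρ' (by linarith [mem_Iio.1 hu])
    have h2 := (tendsto_neg_atBot_atTop.comp (Real.tendsto_log_nhdsGT_zero.comp h1)).atTop_add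
      ((hre lq1).1.add (tendsto_const_nhds (x := (log (D.A a' - D.A a)).re)))
    refine h2.congr' ?_
    filter_upwards [ev1] with u hu
    have hu' : L₀ u - k * (2 * π * I) = ℓ' u + (k' - k : ℤ) * (2 * π * I) := hu
    simp only [hu', hℓ', Function.comp_apply, add_re, sub_re, ofReal_re, mul_re, ofReal_im, I_re,
      I_im, intCast_re, intCast_im]
    simp
    ring
  · have h2 := ((hre lq0).2.sub (tendsto_const_nhds (x := arg (D.A a - D.A a')))).const_add
      (2 * π * θ a i)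
    have h3 := h2.div_const (2 * π)
    have e : (2 * π * θ a i + (0 - arg (D.A a - D.A a'))) / (2 * π) =
        θ a i - arg (D.A a - D.A a') / (2 * π) := by field_simp; ring
    rw [e] at h3
    refine h3.congr' ?_
    filter_upwards [ev0] with u hu
    have hu' : L₀ u - k * (2 * π * I) = ℓ u := hu
    simp only [hu', hℓ, add_im, sub_im, ofReal_im, mul_im, ofReal_re, I_re, I_im, log_im]
    ring
  · have h2 := ((hre lq1).2.add (tendsto_const_nhds (x := arg (D.A a' - D.A a)))).const_add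
      (2 * π * (-θ a' i + (k' - k : ℤ)))
    have h3 := h2.div_const (2 * π)
    have e : (2 * π * (-θ a' i + (k' - k : ℤ)) + (0 + arg (D.A a' - D.A a))) / (2 * π) =
        -θ a' i + (k' - k : ℤ) + arg (D.A a' - D.A a) / (2 * π) := by field_simp; ring
    rw [e] at h3
    refine h3.congr' ?_
    filter_upwards [ev1] with u hu
    have hu' : L₀ u - k * (2 * π * I) = ℓ' u + (k' - k : ℤ) * (2 * π * I) := hu
    simp only [hu', hℓ', add_im, sub_im, ofReal_im, mul_im, ofReal_re, I_re, I_im, log_im,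
      intCast_re, intCast_im]
    simp
    ring

end Vale.Agent.P040.PairAngle
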